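import Mathlib

/-!
# P297, general Z/2 Godeaux: core of the differential formula (F)

Abstract letters of a node direction (al, -be, 1) with `be = al + e`; `W` is the conic
`al be (p+r)^2 + cp p + cr r + w0` (coefficients arbitrary constants), `ka = W - l e pi rho`.
-/

namespace Vale.Agent.P297.H946.Z2F

/-- abstract constants of a node -/
structure PP (R : Type*) where
  al : R
  be : R
  l : R
  A : R
  C : R
  pn : R
  rn : R
  cp : R
  cr : R
  w0 : R

section ring

variable {R : Type*} [CommRing R] (P : PP R)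

/-- `e = be - al` -/
def ee : R := P.be - P.al
/-- the conic `W` -/
def Wf (p r : R) : R := P.al * P.be * (p + r) ^ 2 + P.cp * p + P.cr * r + P.w0
/-- the conic `kappa` -/
def ka (p r : R) : R := Wf P p r - P.l * ee P * (p - P.pn) * (r - P.rn)
/-- `Q_X` -/
def QX (X a b : R) : R := X * a * b - P.be * P.A * a ^ 2 - P.al * P.C * b ^ 2
/-- `Delta` -/
def Dl (p r : R) : R := QX P (P.be * p + P.al * r) (p - P.pn) (r - P.rn)
/-- `q2` -/
def q2 (X : R) : R := X ^ 2 - 4 * P.al * P.be * P.A * P.C
/-- `Y` -/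
def Yf (p r X : R) : R := X - P.be * p - P.al * r
/-- `pi'` -/
def pp (p r X : R) : R := Yf P p r X + ee P * (p - P.pn)
/-- `rho'` -/
def rr (p r X : R) : R := ee P * (r - P.rn) - Yf P p r X
/-- first equation -/
def Phi2 (p r X : R) : R := ee P * q2 P X * Yf P p r X - P.l * QX P X (pp P p r X) (rr P p r X)
/-- second equation -/
def Phi3 (p r X : R) : R :=
  ee P * Wf P p r - ee P * q2 P X - P.l * (X * (pp P p r X - rr P p r X)
    + 2 * P.be * P.A * pp P p r X - 2 * P.al * P.C * rr P p r X
    - Yf P p r X * (X + P.be * P.A + P.al * P.C))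
/-- third equation -/
def S1 (p r X : R) : R := ka P p r * Yf P p r X - P.l * ee P * Dl P p r

theorem S1_eq (p r X : R) : ee P * S1 P p r X = Phi2 P p r X + Yf P p r X * Phi3 P p r X := by
  unfold S1 Phi2 Phi3 ka Dl QX pp rr Yf q2 Wf ee
  ring

/-- coefficient of `y²` of `B` -/
def A2 (p r : R) : R := P.l ^ 2 * ((p - P.pn) + (r - P.rn)) ^ 2 + 4 * Wf P p r
/-- `j0 = al be * ` constant coefficient of `J` -/
def j0 (p r : R) : R :=
  P.l * P.be * ((r - P.rn) * p - P.A * (p - P.pn)) - P.l * P.al * ((p - P.pn) * r - P.C * (r - P.rn))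
    + ka P p r
/-- `al be` times the coefficient of `y` of `B` -/
def A3 (p r : R) : R :=
  2 * P.l * ((p - P.pn) + (r - P.rn)) * j0 P p r
    - 4 * (ka P p r * (P.al * r - P.be * p)
      + P.l * ee P * (P.al * (r - P.rn) * ((p - P.pn) * r - P.C * (r - P.rn))
        - P.be * (p - P.pn) * ((r - P.rn) * p - P.A * (p - P.pn))))
/-- `(al be)²` times the constant coefficient of `B` -/
def A4 (p r : R) : R :=
  j0 P p r ^ 2 - 4 * P.al * P.be * (ka P p r * (p * r - P.A * P.C)
    + P.l * ee P * ((r - P.rn) * p - P.A * (p - P.pn)) * ((p - P.pn) * r - P.C * (r - P.rn)))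
/-- `(al be)²` times the discriminant -/
def TT (p r : R) : R := A3 P p r ^ 2 - 4 * A2 P p r * A4 P p r

/-- the three coefficients of the form: `a2`, `a23`, `a3` (divided by `l`) -/
def a2 (p r X : R) : R := P.l * pp P p r X ^ 2 - 4 * ee P * P.al * P.C * Yf P p r X
def a23 (p r X : R) : R := 2 * P.l * pp P p r X * rr P p r X - 4 * ee P * X * Yf P p r X
def a3 (p r X : R) : R := P.l * rr P p r X ^ 2 - 4 * ee P * P.be * P.A * Yf P p r X

theorem a_disc (p r X : R) :
    a23 P p r X ^ 2 - 4 * a2 P p r X * a3 P p r X = 16 * ee P * Yf P p r X * Phi2 P p r X := by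
  unfold a23 a2 a3 Phi2 q2 QX
  ring

theorem c2 (p r X : R) (h : S1 P p r X = 0) :
    Yf P p r X ^ 2 * A2 P p r =
      P.l * (a2 P p r X * (r - P.rn) ^ 2 - a23 P p r X * (r - P.rn) * (p - P.pn)
        + a3 P p r X * (p - P.pn) ^ 2) := by
  unfold S1 Dl ka QX at h
  unfold A2 a2 a23 a3 pp rr
  simp only [Yf, ee, Wf] at h ⊢
  linear_combination (4 * (X - P.be * p - P.al * r)) * h

/-- `j0 Y` -/
theorem j0_eq (p r X : R) (h : S1 P p r X = 0) :
    j0 P p r * Yf P p r X = P.l * (pp P p r X * (P.be * ((r - P.rn) * p - P.A * (p - P.pn)))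
      + rr P p r X * (P.al * ((p - P.pn) * r - P.C * (r - P.rn)))) := by
  have e1 : j0 P p r * Yf P p r X = P.l * (pp P p r X * (P.be * ((r - P.rn) * p - P.A * (p - P.pn)))
      + rr P p r X * (P.al * ((p - P.pn) * r - P.C * (r - P.rn)))) + S1 P p r X := by
    unfold j0 S1 Dl QX pp rr
    simp only [Yf, ee]
    ring
  rw [e1, h, add_zero]

theorem c1 (p r X : R) (h : S1 P p r X = 0) :
    Yf P p r X ^ 2 * A3 P p r =
      P.l * (2 * a2 P p r X * (P.be * ((r - P.rn) * p - P.A * (p - P.pn))) * (r - P.rn)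
        + a23 P p r X * ((r - P.rn) * (P.al * ((p - P.pn) * r - P.C * (r - P.rn)))
          - (p - P.pn) * (P.be * ((r - P.rn) * p - P.A * (p - P.pn))))
        - 2 * a3 P p r X * (P.al * ((p - P.pn) * r - P.C * (r - P.rn))) * (p - P.pn)) := by
  have e1 := j0_eq P p r X h
  unfold S1 Dl at h
  unfold A3 a2 a23 a3 pp rr at *
  unfold QX at h
  simp only [Yf, ee] at h e1 ⊢
  generalize j0 P p r = j at *
  generalize ka P p r = k at *
  linear_combination (2 * (X - P.be * p - P.al * r) * P.l * ((p - P.pn) + (r - P.rn))) * e1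
    - (4 * (X - P.be * p - P.al * r) * (P.al * r - P.be * p)) * h

theorem c0 (p r X : R) (h : S1 P p r X = 0) :
    Yf P p r X ^ 2 * A4 P p r =
      P.l * (a2 P p r X * (P.be * ((r - P.rn) * p - P.A * (p - P.pn))) ^ 2
        + a23 P p r X * (P.be * ((r - P.rn) * p - P.A * (p - P.pn)))
          * (P.al * ((p - P.pn) * r - P.C * (r - P.rn)))
        + a3 P p r X * (P.al * ((p - P.pn) * r - P.C * (r - P.rn))) ^ 2) := by
  have e1 := j0_eq P p r X h
  unfold S1 Dl at h
  unfold A4 a2 a23 a3 pp rr at *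
  unfold QX at h
  simp only [Yf, ee] at h e1 ⊢
  generalize j0 P p r = j at *
  generalize ka P p r = k at *
  linear_combination ((X - P.be * p - P.al * r) * j + P.l * ((X - P.be * p - P.al * r + (P.be - P.al) * (p - P.pn)) * (P.be * ((r - P.rn) * p - P.A * (p - P.pn)))
      + ((P.be - P.al) * (r - P.rn) - (X - P.be * p - P.al * r)) * (P.al * ((p - P.pn) * r - P.C * (r - P.rn))))) * e1
    - (4 * P.al * P.be * (X - P.be * p - P.al * r) * (p * r - P.A * P.C)) * h

theorem D_eq (p r : R) : (r - P.rn) * (P.al * ((p - P.pn) * r - P.C * (r - P.rn)))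
      + (p - P.pn) * (P.be * ((r - P.rn) * p - P.A * (p - P.pn))) = Dl P p r := by
  unfold Dl QX; ring

/-- **the discriminant on the surface `S1 = 0`** -/
theorem TT_eq (p r X : R) (h : S1 P p r X = 0) :
    ee P * Yf P p r X ^ 4 * TT P p r =
      16 * ka P p r ^ 2 * Yf P p r X ^ 3 * Phi2 P p r X := by
  have h2 := c2 P p r X h
  have h1 := c1 P p r X h
  have h0 := c0 P p r X h
  have hd := a_disc P p r X
  have hD := D_eq P p r
  have hk : P.l * ee P * Dl P p r = ka P p r * Yf P p r X := by
    unfold S1 at h; linear_combination -h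
  unfold TT
  generalize Yf P p r X = Y at *
  generalize A2 P p r = B2 at *
  generalize A3 P p r = B3 at *
  generalize A4 P p r = B4 at *
  generalize a2 P p r X = b2 at *
  generalize a3 P p r X = b3 at *
  generalize a23 P p r X = b23 at *
  generalize Phi2 P p r X = F at *
  generalize Dl P p r = Del at *
  generalize ka P p r = k at *
  generalize ee P = e at *
  generalize P.be * ((r - P.rn) * p - P.A * (p - P.pn)) = g20 at *
  generalize P.al * ((p - P.pn) * r - P.C * (r - P.rn)) = g30 at *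
  generalize r - P.rn = rho at *
  generalize p - P.pn = pi at *
  generalize P.l = l at *
  have e1 : (Y ^ 2 * B3) ^ 2 - 4 * (Y ^ 2 * B2) * (Y ^ 2 * B4)
      = l ^ 2 * (b23 ^ 2 - 4 * b2 * b3) * (rho * g30 + pi * g20) ^ 2 := by
    rw [h1, h2, h0]; ring
  rw [hd, hD] at e1
  linear_combination e * e1 + 16 * Y * F * (l * e * Del + k * Y) * hk

/-- `w * sqrt(A2)` -/
def HH (p r X : R) : R :=
  2 * Wf P p r + P.l * ((X + 2 * P.al * P.C) * (r - P.rn) - (X + 2 * P.be * P.A) * (p - P.pn))

/-- `2 A2 (al be) J(a)`, `a` the tangency point -/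
def H4 (p r : R) : R :=
  2 * A2 P p r * j0 P p r - P.l * ((p - P.pn) + (r - P.rn)) * A3 P p r

theorem TT_aux (al be l A C p r pi rho k Y X : R) (hX : X = Y + (be * p + al * r)) (h : k * Y - l * (be - al) *
      ((be * p + al * r) * pi * rho - be * A * pi ^ 2 - al * C * rho ^ 2) = 0) :
    (be - al) * ((2 * l * (pi + rho) * (l * be * (rho * p - A * pi) - l * al * (pi * r - C * rho) + k)
      - 4 * (k * (al * r - be * p) + l * (be - al) * (al * rho * (pi * r - C * rho)
        - be * pi * (rho * p - A * pi)))) ^ 2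
      - 4 * (l ^ 2 * (pi + rho) ^ 2 + 4 * (k + l * (be - al) * pi * rho)) *
      ((l * be * (rho * p - A * pi) - l * al * (pi * r - C * rho) + k) ^ 2
        - 4 * al * be * (k * (p * r - A * C) + l * (be - al) * (rho * p - A * pi)
          * (pi * r - C * rho)))) =
    -(16 * k ^ 2 * ((be - al) * (k + l * (be - al) * pi * rho)
      - (be - al) * (X ^ 2 - 4 * al * be * A * C)
      - l * (X * (Y + (be - al) * pi - ((be - al) * rho - Y))
        + 2 * be * A * (Y + (be - al) * pi) - 2 * al * C * ((be - al) * rho - Y)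
        - Y * (X + be * A + al * C)))) := by
  have e1 : l * (be - al) * ((be * p + al * r) * pi * rho - be * A * pi ^ 2 - al * C * rho ^ 2)
      = k * Y := by linear_combination -h
  have e2 : (2 * l * (pi + rho) * (l * be * (rho * p - A * pi) - l * al * (pi * r - C * rho) + k)
      - 4 * (k * (al * r - be * p) + l * (be - al) * (al * rho * (pi * r - C * rho)
        - be * pi * (rho * p - A * pi)))) ^ 2
      - 4 * (l ^ 2 * (pi + rho) ^ 2 + 4 * (k + l * (be - al) * pi * rho)) *
      ((l * be * (rho * p - A * pi) - l * al * (pi * r - C * rho) + k) ^ 2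
        - 4 * al * be * (k * (p * r - A * C) + l * (be - al) * (rho * p - A * pi)
          * (pi * r - C * rho))) =
      16 * (k ^ 2 * ((be * p + al * r) ^ 2 - 4 * al * be * A * C +
        l * ((be * p + al * r) * (pi - rho) + 2 * be * A * pi - 2 * al * C * rho) -
          (k + l * (be - al) * pi * rho)) +
      k * ((be * p + al * r) * pi * rho - be * A * pi ^ 2 - al * C * rho ^ 2) *
        (2 * l * (be - al) * (be * p + al * r) + l ^ 2 * (be - al) * (pi - rho) +
          l ^ 2 * (be * p + al * r + be * A + al * C)) +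
      ((be * p + al * r) * pi * rho - be * A * pi ^ 2 - al * C * rho ^ 2) ^ 2 *
        (l ^ 2 * (be - al) * ((be - al) + l))) := by
    ring
  rw [e2, hX]
  clear e2 hX
  generalize (be * p + al * r) * pi * rho - be * A * pi ^ 2 - al * C * rho ^ 2 = M at e1 ⊢
  generalize be * p + al * r = c0 at *
  linear_combination (16 * (k * ((be - al) * (2 * c0 + l * (pi - rho))
    + l * (c0 + be * A + al * C)) + (k * Y + l * (be - al) * M) * ((be - al) + l))) * e1

/-- **the discriminant on the surface `S1 = 0`**, without denominators -/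
theorem TT_eq2 (p r X : R) (h : S1 P p r X = 0) :
    ee P * TT P p r = -(16 * ka P p r ^ 2 * Phi3 P p r X) := by
  have hW : Wf P p r = ka P p r + P.l * ee P * (p - P.pn) * (r - P.rn) := by
    unfold ka; ring
  have hX : X = Yf P p r X + (P.be * p + P.al * r) := by unfold Yf; ring
  unfold S1 Dl QX at h
  have key := TT_aux P.al P.be P.l P.A P.C p r (p - P.pn) (r - P.rn) (ka P p r) (Yf P p r X) X
    hX (by unfold ee at h; exact h)
  unfold TT A2 A3 A4 j0 Phi3 q2 pp rr
  rw [hW]
  unfold ee
  rw [key]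

/-- **`2 A2 (al be) J(a) = 4 kappa w sqrt(A2)`**, exact form -/
theorem H4_exact (p r X : R) : H4 P p r = 4 * ka P p r * HH P p r X
    - 4 * P.l * ((r - P.rn) - (p - P.pn)) * S1 P p r X := by
  have hW : Wf P p r = ka P p r + P.l * ee P * (p - P.pn) * (r - P.rn) := by
    unfold ka; ring
  unfold H4 A2 A3 j0 HH S1 Dl QX
  rw [hW]
  simp only [Yf]
  generalize p - P.pn = pi
  generalize r - P.rn = rho
  ring

theorem HH_eq (p r X : R) (h : S1 P p r X = 0) :
    Yf P p r X * HH P p r X = P.l * (X * (pp P p r X * (r - P.rn) + (p - P.pn) * rr P p r X)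
      - 2 * P.be * P.A * (p - P.pn) * pp P p r X - 2 * P.al * P.C * (r - P.rn) * rr P p r X) := by
  unfold S1 Dl ka QX at h
  unfold HH pp rr
  simp only [Yf, ee, Wf] at h ⊢
  linear_combination 2 * h

/-- **`2 A2 (al be) J(a) = 4 kappa w sqrt(A2)`** -/
theorem H4_eq (p r X : R) (h : S1 P p r X = 0) :
    Yf P p r X ^ 3 * H4 P p r = 4 * ka P p r * Yf P p r X ^ 3 * HH P p r X := by
  have h2 := c2 P p r X h
  have h1 := c1 P p r X h
  have hj := j0_eq P p r X h
  have hD := D_eq P p r
  have hH := HH_eq P p r X h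
  have hk : P.l * ee P * Dl P p r = ka P p r * Yf P p r X := by
    unfold S1 at h; linear_combination -h
  unfold H4
  have hs : P.l * ((p - P.pn) + (r - P.rn)) * Yf P p r X
      = P.l * (pp P p r X * (r - P.rn) - rr P p r X * (p - P.pn)) := by
    unfold pp rr; ring
  have e2 : a2 P p r X = P.l * pp P p r X ^ 2 - 4 * ee P * P.al * P.C * Yf P p r X := rfl
  have e3 : a3 P p r X = P.l * rr P p r X ^ 2 - 4 * ee P * P.be * P.A * Yf P p r X := rfl
  have e23 : a23 P p r X
      = 2 * P.l * pp P p r X * rr P p r X - 4 * ee P * X * Yf P p r X := rfl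
  rw [e2, e3, e23] at h2 h1
  generalize Yf P p r X = Y at *
  generalize A2 P p r = B2 at *
  generalize A3 P p r = B3 at *
  generalize pp P p r X = pi' at *
  generalize rr P p r X = rho' at *
  generalize j0 P p r = j at *
  generalize Dl P p r = Del at *
  generalize ka P p r = k at *
  generalize HH P p r X = H at *
  generalize ee P = e at *
  generalize P.be * ((r - P.rn) * p - P.A * (p - P.pn)) = g20 at *
  generalize P.al * ((p - P.pn) * r - P.C * (r - P.rn)) = g30 at *
  generalize r - P.rn = rho at *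
  generalize p - P.pn = pi at *
  generalize P.l = l at *
  generalize P.A = A at *
  generalize P.C = C at *
  generalize P.al = al at *
  generalize P.be = be at *
  have e4 : Y ^ 3 * (2 * B2 * j - l * (pi + rho) * B3)
      = 2 * (Y ^ 2 * B2) * (j * Y) - (l * (pi + rho) * Y) * (Y ^ 2 * B3) := by ring
  rw [e4, h2, h1, hj, hs]
  linear_combination (4 * k * Y ^ 2) * (0 : R) * hk - 4 * k * Y ^ 2 * hH
      + 4 * Y * l * (X * (pi' * rho + pi * rho') - 2 * be * A * pi * pi' - 2 * al * C * rho * rho') * hk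
      + (4 * l ^ 2 * e * Y * (X * (pi' * rho + pi * rho') - 2 * be * A * pi * pi' - 2 * al * C * rho * rho')) * hD

/-- **`A2 q2 = H²` on the curve** -/
theorem A2_q2 (p r X : R) (h : S1 P p r X = 0) (h2 : Phi2 P p r X = 0) :
    Yf P p r X ^ 2 * (A2 P p r * q2 P X) = Yf P p r X ^ 2 * HH P p r X ^ 2 := by
  have hH := HH_eq P p r X h
  have hc := c2 P p r X h
  have e2 : a2 P p r X = P.l * pp P p r X ^ 2 - 4 * ee P * P.al * P.C * Yf P p r X := rfl
  have e3 : a3 P p r X = P.l * rr P p r X ^ 2 - 4 * ee P * P.be * P.A * Yf P p r X := rfl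
  have e23 : a23 P p r X
      = 2 * P.l * pp P p r X * rr P p r X - 4 * ee P * X * Yf P p r X := rfl
  have eq2 : q2 P X = X ^ 2 - 4 * P.al * P.be * P.A * P.C := rfl
  rw [e2, e3, e23] at hc
  unfold Phi2 QX at h2
  have e5 : Yf P p r X ^ 2 * HH P p r X ^ 2 = (Yf P p r X * HH P p r X) ^ 2 := by ring
  rw [e5, hH]
  have e6 : Yf P p r X ^ 2 * (A2 P p r * q2 P X) = (Yf P p r X ^ 2 * A2 P p r) * q2 P X := by ring
  rw [e6, hc]
  rw [eq2] at h2 ⊢
  generalize Yf P p r X = Y at *
  generalize pp P p r X = pi' at *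
  generalize rr P p r X = rho' at *
  generalize ee P = e at *
  generalize r - P.rn = rho at *
  generalize p - P.pn = pi at *
  generalize P.l = l at *
  generalize P.A = A at *
  generalize P.C = C at *
  generalize P.al = al at *
  generalize P.be = be at *
  linear_combination (4 * l * (X * pi * rho - be * A * pi ^ 2 - al * C * rho ^ 2)) * h2

end ring

end Vale.Agent.P297.H946.Z2F
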