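import Mathlib
import Vale.Agent.P297.H946.Z2.FCore

/-!
# P297, general Z/2 Godeaux: the differential formula (F), derivative part
-/

namespace Vale.Agent.P297.H946.Z2F



section ring

variable {R : Type*} [CommRing R] (P : PP R)

/-- partial derivatives of `Phi2`, `Phi3` in the coordinates `x0 = p + r`, `X`, `Y` -/
def ax (p r X : R) : R :=
  -(P.l * (P.be * pp P p r X * (X + 2 * P.al * P.A) - P.al * rr P p r X * (X + 2 * P.be * P.C)))
def aX (p r X : R) : R :=
  2 * ee P * X * Yf P p r X - P.l * (pp P p r X * rr P p r X + X * (rr P p r X - pp P p r X)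
    - 2 * P.be * P.A * pp P p r X + 2 * P.al * P.C * rr P p r X)
def aY (X : R) : R := ee P * q2 P X
def bx (p r X : R) : R :=
  2 * ee P * P.al * P.be * (p + r) - P.al * P.cp + P.be * P.cr
    + P.l * ((P.al + P.be) * X + 2 * P.al * P.be * (P.A + P.C))
def bX (p r X : R) : R :=
  P.cp - P.cr - 2 * ee P * X - P.l * ((pp P p r X - rr P p r X) + 2 * X + 2 * P.be * P.A
    + 2 * P.al * P.C - Yf P p r X)
def bY (X : R) : R := P.cr - P.cp + P.l * (X + P.be * P.A + P.al * P.C)

/-- `e κ` is the derivative of `e S1` in the direction of `X`. -/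
theorem ek_eq (p r X : R) : aX P p r X + aY P X + Yf P p r X * (bX P p r X + bY P X)
    = ee P * ka P p r - Phi3 P p r X := by
  unfold aX aY bX bY Phi3 ka Wf q2 pp rr Yf ee
  ring

end ring

section pder

variable {R K : Type*} [CommRing R] [Field K] (f : R →+* K) (d : R →+ K)

/-- the constants mapped by a ring homomorphism -/
def PP.map {R S : Type*} [CommRing R] [CommRing S] (f : R →+* S) (P : PP R) : PP S :=
  ⟨f P.al, f P.be, f P.l, f P.A, f P.C, f P.pn, f P.rn, f P.cp, f P.cr, f P.w0⟩

/-- the constants are killed by a point derivation -/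
structure Killed (d : R →+ K) (P : PP R) : Prop where
  al : d P.al = 0
  be : d P.be = 0
  l : d P.l = 0
  A : d P.A = 0
  C : d P.C = 0
  pn : d P.pn = 0
  rn : d P.rn = 0
  cp : d P.cp = 0
  cr : d P.cr = 0
  w0 : d P.w0 = 0

variable {f d}

theorem d_one (hd : ∀ x y, d (x * y) = f x * d y + d x * f y) : d 1 = 0 := by
  have h := hd 1 1
  simp only [mul_one, map_one, one_mul] at h
  simpa using h

theorem d_num (hd : ∀ x y, d (x * y) = f x * d y + d x * f y) (n : ℕ) [n.AtLeastTwo] :
    d (OfNat.ofNat n) = 0 := by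
  have key : ∀ m : ℕ, d (m : R) = 0 := by
    intro m
    induction m with
    | zero => simp
    | succ m ih => rw [Nat.cast_succ, map_add, ih, d_one hd, add_zero]
  rw [← Nat.cast_ofNat (R := R) (n := n)]
  exact key _

theorem d_sq (hd : ∀ x y, d (x * y) = f x * d y + d x * f y) (x : R) :
    d (x ^ 2) = 2 * f x * d x := by
  rw [pow_two, hd]; ring

theorem f_Phi2 (P : PP R) (p r X : R) :
    f (Phi2 P p r X) = Phi2 (P.map f) (f p) (f r) (f X) := by
  simp only [Phi2, q2, Yf, QX, pp, rr, ee, PP.map, map_sub, map_mul, map_pow, map_add, map_ofNat]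

theorem f_Phi3 (P : PP R) (p r X : R) :
    f (Phi3 P p r X) = Phi3 (P.map f) (f p) (f r) (f X) := by
  simp only [Phi3, Wf, q2, Yf, pp, rr, ee, PP.map, map_sub, map_mul, map_pow, map_add, map_ofNat]

theorem f_ka {R S : Type*} [CommRing R] [CommRing S] (f : R →+* S) (P : PP R) (p r : R) :
    f (ka P p r) = ka (P.map f) (f p) (f r) := by
  simp only [ka, Wf, ee, PP.map, map_sub, map_mul, map_pow, map_add]

theorem f_TT {R S : Type*} [CommRing R] [CommRing S] (f : R →+* S) (P : PP R) (p r : R) :
    f (TT P p r) = TT (P.map f) (f p) (f r) := by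
  simp only [TT, A2, A3, A4, j0, ka, Wf, ee, PP.map, map_sub, map_mul, map_pow, map_add, map_ofNat]

theorem d_Phi2 (hd : ∀ x y, d (x * y) = f x * d y + d x * f y) {P : PP R} (hP : Killed d P)
    (p r X : R) :
    d (Phi2 P p r X) = ax (P.map f) (f p) (f r) (f X) * (d p + d r)
      + aX (P.map f) (f p) (f r) (f X) * d X
      + aY (P.map f) (f X) * (d X - f P.be * d p - f P.al * d r) := by
  simp only [Phi2, q2, Yf, QX, pp, rr, ee, map_mul, map_add, map_sub, map_ofNat, map_pow, hd,
    d_num hd, d_sq hd, hP.al, hP.be, hP.l, hP.A, hP.C, hP.pn, hP.rn, ax, aX, aY, PP.map]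
  ring

theorem d_Phi3 (hd : ∀ x y, d (x * y) = f x * d y + d x * f y) {P : PP R} (hP : Killed d P)
    (p r X : R) :
    d (Phi3 P p r X) = bx (P.map f) (f p) (f r) (f X) * (d p + d r)
      + bX (P.map f) (f p) (f r) (f X) * d X
      + bY (P.map f) (f X) * (d X - f P.be * d p - f P.al * d r) := by
  simp only [Phi3, Wf, q2, Yf, pp, rr, ee, map_mul, map_add, map_sub, map_ofNat, map_pow, hd,
    d_num hd, d_sq hd, hP.al, hP.be, hP.l, hP.A, hP.C, hP.pn, hP.rn, hP.cp, hP.cr, hP.w0,
    bx, bX, bY, PP.map]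
  ring

theorem d_TT (hd : ∀ x y, d (x * y) = f x * d y + d x * f y) {P : PP R}
    (p r X : R) (hS : S1 P p r X = 0) (h3 : f (Phi3 P p r X) = 0) (he : f (ee P) ≠ 0) :
    f (ee P) * d (TT P p r) = -(16 * f (ka P p r) ^ 2 * d (Phi3 P p r X)) := by
  have h := TT_eq2 P p r X hS
  have hf := congrArg f h
  have hdd := congrArg d h
  simp only [map_mul, map_pow, map_ofNat, map_neg] at hf
  rw [h3, mul_zero, neg_zero] at hf
  have hT : f (TT P p r) = 0 := by
    rcases mul_eq_zero.mp hf with h' | h'
    · exact absurd h' he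
    · exact h'
  rw [hd, map_neg, hd (16 * ka P p r ^ 2), hT, h3, mul_zero, mul_zero, add_zero,
    add_zero] at hdd
  simp only [map_mul, map_pow, map_ofNat] at hdd
  exact hdd

/-- the homomorphism to the dual numbers given by a point derivation -/
noncomputable def toDual (hd : ∀ x y, d (x * y) = f x * d y + d x * f y) : R →+* DualNumber K where
  toFun x := TrivSqZeroExt.inl (f x) + TrivSqZeroExt.inr (d x)
  map_one' := by
    rw [d_one hd, map_one]; simp
  map_mul' x y := by
    refine TrivSqZeroExt.ext ?_ ?_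
    · simp
    · simp only [map_mul, hd, DualNumber.snd_mul, TrivSqZeroExt.snd_add, TrivSqZeroExt.snd_inl,
        TrivSqZeroExt.snd_inr, TrivSqZeroExt.fst_add, TrivSqZeroExt.fst_inl,
        TrivSqZeroExt.fst_inr]
      ring
  map_zero' := by simp
  map_add' x y := by
    refine TrivSqZeroExt.ext ?_ ?_ <;> simp

theorem toDual_apply (hd : ∀ x y, d (x * y) = f x * d y + d x * f y) (x : R) :
    toDual hd x = TrivSqZeroExt.inl (f x) + TrivSqZeroExt.inr (d x) := rfl

theorem toDual_snd (hd : ∀ x y, d (x * y) = f x * d y + d x * f y) (x : R) :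
    (toDual hd x).snd = d x := by
  simp [toDual_apply]

theorem toDual_fst (hd : ∀ x y, d (x * y) = f x * d y + d x * f y) (x : R) :
    (toDual hd x).fst = f x := by
  simp [toDual_apply]

end pder

section main

variable {R K : Type*} [CommRing R] [Field K] {f : R →+* K} {d : R →+ K}

/-- `snd` as an additive map -/
def sndK (K : Type*) [Field K] : DualNumber K →+ K where
  toFun x := TrivSqZeroExt.snd x
  map_zero' := by simp
  map_add' x y := by simp

/-- `fst` as a ring homomorphism -/
def fstK (K : Type*) [Field K] : DualNumber K →+* K where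
  toFun x := TrivSqZeroExt.fst x
  map_zero' := by simp
  map_add' x y := by simp
  map_one' := by simp
  map_mul' x y := by simp

theorem sndK_mul (x y : DualNumber K) :
    sndK K (x * y) = fstK K x * sndK K y + sndK K x * fstK K y := DualNumber.snd_mul x y

theorem fstK_toDual (hd : ∀ x y, d (x * y) = f x * d y + d x * f y) (x : R) :
    fstK K (toDual hd x) = f x := toDual_fst hd x

theorem sndK_toDual (hd : ∀ x y, d (x * y) = f x * d y + d x * f y) (x : R) :
    sndK K (toDual hd x) = d x := toDual_snd hd x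

theorem killed_toDual (hd : ∀ x y, d (x * y) = f x * d y + d x * f y) {P : PP R}
    (hP : Killed d P) : Killed (sndK K) (P.map (toDual hd)) := by
  constructor <;> simp only [PP.map, sndK_toDual, hP.al, hP.be, hP.l, hP.A, hP.C, hP.pn, hP.rn,
    hP.cp, hP.cr, hP.w0]

theorem map_map (hd : ∀ x y, d (x * y) = f x * d y + d x * f y) (P : PP R) :
    (P.map (toDual hd)).map (fstK K) = P.map f := by
  simp only [PP.map, fstK_toDual]

/-- the constants are killed by a derivation of the field -/
structure KilledD (D : Derivation ℤ K K) (P : PP K) : Prop where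
  al : D P.al = 0
  be : D P.be = 0
  l : D P.l = 0
  A : D P.A = 0
  C : D P.C = 0
  pn : D P.pn = 0
  rn : D P.rn = 0
  cp : D P.cp = 0
  cr : D P.cr = 0
  w0 : D P.w0 = 0

theorem D_Phi2 (D : Derivation ℤ K K) {P : PP K} (hP : KilledD D P) (p r X : K) :
    D (Phi2 P p r X) = ax P p r X * (D p + D r) + aX P p r X * D X
      + aY P X * (D X - P.be * D p - P.al * D r) := by
  have hd : ∀ x y, (D : K →+ K) (x * y)
      = RingHom.id K x * (D : K →+ K) y + (D : K →+ K) x * RingHom.id K y := by
    intro x y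
    simp only [AddMonoidHom.coe_coe, Derivation.leibniz, smul_eq_mul, RingHom.id_apply]
    ring
  exact d_Phi2 (f := RingHom.id K) (d := (D : K →+ K)) hd
    ⟨hP.al, hP.be, hP.l, hP.A, hP.C, hP.pn, hP.rn, hP.cp, hP.cr, hP.w0⟩ p r X

theorem D_Phi3 (D : Derivation ℤ K K) {P : PP K} (hP : KilledD D P) (p r X : K) :
    D (Phi3 P p r X) = bx P p r X * (D p + D r) + bX P p r X * D X
      + bY P X * (D X - P.be * D p - P.al * D r) := by
  have hd : ∀ x y, (D : K →+ K) (x * y)
      = RingHom.id K x * (D : K →+ K) y + (D : K →+ K) x * RingHom.id K y := by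
    intro x y
    simp only [AddMonoidHom.coe_coe, Derivation.leibniz, smul_eq_mul, RingHom.id_apply]
    ring
  exact d_Phi3 (f := RingHom.id K) (d := (D : K →+ K)) hd
    ⟨hP.al, hP.be, hP.l, hP.A, hP.C, hP.pn, hP.rn, hP.cp, hP.cr, hP.w0⟩ p r X

/-- `Tx = 2 T2 x0 + T1 = e w v` -/
def Tx {R : Type*} [CommRing R] (P : PP R) (p r X : R) : R :=
  bY P X * ax P p r X - aY P X * bx P p r X

/-- **(F), first form.** -/
theorem F_core (hd : ∀ x y, d (x * y) = f x * d y + d x * f y) {P : PP R} (hP : Killed d P)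
    (p r : R) (D : Derivation ℤ K K) (hD : KilledD D (P.map f)) (X : K)
    (h2 : Phi2 (P.map f) (f p) (f r) X = 0) (h3 : Phi3 (P.map f) (f p) (f r) X = 0)
    (he : ee (P.map f) ≠ 0) (hk : ka (P.map f) (f p) (f r) ≠ 0) :
    ee (P.map f) * (d (TT P p r) * D X) = 16 * ka (P.map f) (f p) (f r)
      * Tx (P.map f) (f p) (f r) X * (D (f p) * d r - D (f r) * d p) := by
  -- the two equations of `D`
  have g2 := D_Phi2 D hD (f p) (f r) X
  have g3 := D_Phi3 D hD (f p) (f r) X
  rw [h2, map_zero] at g2
  rw [h3, map_zero] at g3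
  -- the derivative of `X` along the surface
  have hek := ek_eq (P.map f) (f p) (f r) X
  rw [h3, sub_zero] at hek
  have hek0 : ee (P.map f) * ka (P.map f) (f p) (f r) ≠ 0 := mul_ne_zero he hk
  set a := ax (P.map f) (f p) (f r) X with ha
  set a' := aX (P.map f) (f p) (f r) X with ha'
  set a'' := aY (P.map f) X with ha''
  set b := bx (P.map f) (f p) (f r) X with hb
  set b' := bX (P.map f) (f p) (f r) X with hb'
  set b'' := bY (P.map f) X with hb''
  set Y := Yf (P.map f) (f p) (f r) X with hYd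
  set χ : K := ((a'' + Y * b'') * (f P.be * d p + f P.al * d r) - (a + Y * b) * (d p + d r))
    / (ee (P.map f) * ka (P.map f) (f p) (f r)) with hχ
  have hχ' : (ee (P.map f) * ka (P.map f) (f p) (f r)) * χ
      = (a'' + Y * b'') * (f P.be * d p + f P.al * d r) - (a + Y * b) * (d p + d r) := by
    rw [hχ]; field_simp
  -- dual numbers
  let Q := P.map (toDual hd)
  let pt := toDual hd p
  let rt := toDual hd r
  let Xt : DualNumber K := TrivSqZeroExt.inl X + TrivSqZeroExt.inr χ
  have fX : fstK K Xt = X := by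
    change TrivSqZeroExt.fst Xt = X
    simp [Xt]
  have sX : sndK K Xt = χ := by
    change TrivSqZeroExt.snd Xt = χ
    simp [Xt]
  have fp : fstK K pt = f p := fstK_toDual hd p
  have fr : fstK K rt = f r := fstK_toDual hd r
  have sp : sndK K pt = d p := sndK_toDual hd p
  have sr : sndK K rt = d r := sndK_toDual hd r
  have hQ : Q.map (fstK K) = P.map f := map_map hd P
  have kQ : Killed (sndK K) Q := killed_toDual hd hP
  have fbe : fstK K Q.be = f P.be := fstK_toDual hd P.be
  have fal : fstK K Q.al = f P.al := fstK_toDual hd P.al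
  have q2 := d_Phi2 sndK_mul kQ pt rt Xt
  have q3 := d_Phi3 sndK_mul kQ pt rt Xt
  have r2 := f_Phi2 (f := fstK K) Q pt rt Xt
  have r3 := f_Phi3 (f := fstK K) Q pt rt Xt
  rw [hQ, fp, fr, fX] at r2 r3
  rw [h2] at r2
  rw [h3] at r3
  rw [hQ, fp, fr, fX, sp, sr, sX, fbe, fal, ← ha, ← ha', ← ha''] at q2
  rw [hQ, fp, fr, fX, sp, sr, sX, fbe, fal, ← hb, ← hb', ← hb''] at q3
  have see : sndK K (ee Q) = 0 := by
    unfold ee; rw [map_sub, kQ.al, kQ.be, sub_zero]
  have fee : fstK K (ee Q) = ee (P.map f) := by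
    unfold ee; rw [map_sub, fbe, fal]; rfl
  have fY : fstK K (Yf Q pt rt Xt) = Y := by
    unfold Yf; rw [map_sub, map_sub, map_mul, map_mul, fbe, fal, fp, fr, fX]; rfl
  have fka : fstK K (ka Q pt rt) = ka (P.map f) (f p) (f r) := by
    rw [f_ka (fstK K) Q pt rt, hQ, fp, fr]
  have hS := S1_eq Q pt rt Xt
  have hS0 : S1 Q pt rt Xt = 0 := by
    have hf := congrArg (fstK K) hS
    have hs := congrArg (sndK K) hS
    rw [map_mul, map_add, map_mul, r2, r3, mul_zero, add_zero, fee] at hf
    have hf' : fstK K (S1 Q pt rt Xt) = 0 := by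
      rcases mul_eq_zero.mp hf with h' | h'
      · exact absurd h' he
      · exact h'
    rw [sndK_mul, see, zero_mul, add_zero, map_add, sndK_mul, r3, mul_zero, add_zero, fee, fY,
      q2, q3] at hs
    have hs' : sndK K (S1 Q pt rt Xt) = 0 := by
      have : ee (P.map f) * sndK K (S1 Q pt rt Xt) = 0 := by
        rw [hs]; linear_combination hχ' + χ * hek
      rcases mul_eq_zero.mp this with h' | h'
      · exact absurd h' he
      · exact h'
    exact TrivSqZeroExt.ext hf' hs'
  have fin := d_TT (f := fstK K) (d := sndK K) sndK_mul pt rt Xt hS0 r3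
    (by rw [fee]; exact he)
  rw [fee, fka, q3] at fin
  have hTT : sndK K (TT Q pt rt) = d (TT P p r) := by
    have := f_TT (toDual hd) P p r
    rw [← this]
    exact sndK_toDual hd _
  rw [hTT] at fin
  unfold Tx
  rw [← ha, ← ha'', ← hb, ← hb'']
  have hpe : (P.map f).be = f P.be := rfl
  have hpa : (P.map f).al = f P.al := rfl
  have hee : ee (P.map f) = f P.be - f P.al := rfl
  rw [hpe, hpa] at g2 g3
  generalize ka (P.map f) (f p) (f r) = k at *
  generalize d (TT P p r) = T' at *
  generalize D (f p) = Dp at *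
  generalize D (f r) = Dr at *
  generalize D X = DX at *
  generalize d p = ξ at *
  generalize d r = η at *
  generalize f P.be = be at *
  generalize f P.al = al at *
  generalize ee (P.map f) = e at *
  apply mul_left_cancel₀ he
  clear_value a a' a'' b b' b'' Y χ
  clear hS hS0 r2 r3 q2 q3 fY fka fee see fX sX fp fr sp sr hQ kQ fbe fal hpe hpa ha ha' ha''
    hb hb' hb'' hYd hD h2 h3 hTT hχ hek0
  subst hee
  linear_combination ((be - al) * DX) * fin
    + 16 * k * ((b * (ξ + η) + b' * χ + b'' * (χ - be * ξ - al * η)) * DX * hek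
      - DX * (b' + b'') * (χ * hek + hχ')
      - (a * (ξ + η) - a'' * (be * ξ + al * η)) * g3
      + (b * (ξ + η) - b'' * (be * ξ + al * η)) * g2)

/-- **(F).** `s² = A2`, `s u = H` (so `u² = q2 X`), `e u v = Tx` (so `v² = q4 X`),
`H4 = 2 A2 (al be) J(a)`. -/
theorem F_main (hd : ∀ x y, d (x * y) = f x * d y + d x * f y) {P : PP R} (hP : Killed d P)
    (p r : R) (D : Derivation ℤ K K) (hD : KilledD D (P.map f)) (X : K)
    (h2 : Phi2 (P.map f) (f p) (f r) X = 0) (h3 : Phi3 (P.map f) (f p) (f r) X = 0)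
    (he : ee (P.map f) ≠ 0) (hk : ka (P.map f) (f p) (f r) ≠ 0) (u v s : K)
    (hsu : s * u = HH (P.map f) (f p) (f r) X)
    (hv : ee (P.map f) * (u * v) = Tx (P.map f) (f p) (f r) X) :
    s * (d (TT P p r) * D X) = 4 * v * H4 (P.map f) (f p) (f r)
      * (D (f p) * d r - D (f r) * d p) := by
  have h := F_core hd hP p r D hD X h2 h3 he hk
  have hS1 : S1 (P.map f) (f p) (f r) X = 0 := by
    have := S1_eq (P.map f) (f p) (f r) X
    rw [h2, h3, mul_zero, add_zero] at this
    rcases mul_eq_zero.mp this with h' | h'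
    · exact absurd h' he
    · exact h'
  have h4 := H4_exact (P.map f) (f p) (f r) X
  rw [hS1, mul_zero, sub_zero] at h4
  rw [← hv] at h
  have h5 : d (TT P p r) * D X = 16 * ka (P.map f) (f p) (f r) * (u * v)
      * (D (f p) * d r - D (f r) * d p) := by
    apply mul_left_cancel₀ he
    rw [h]; ring
  rw [h4, ← hsu, h5]
  ring

end main

end Vale.Agent.P297.H946.Z2F
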