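import Vale.Agent.P297.H940.Z2.Bir
import Vale.Agent.P297.H946.Z2.FDer

/-!
# P297, general Z/2 Godeaux: the differential formula (F) on the curve of tangent lines

In the letters of `H940/Z2/{Tan, Bir}.lean`.
-/

namespace Vale.Agent.P297.H946.Z2F

open Polynomial Vale.Agent.P297.Z2

section ring

variable {R : Type} [CommRing R] (d : TD R)

/-- the constants of a node -/
def toPP : PP R := ⟨d.al, d.be, d.l, d.A, d.C, d.pn, d.rn, d.kp, d.kr, d.w0⟩

variable {d}

theorem toPP_ee (he : d.e = d.be - d.al) : ee (toPP d) = d.e := he.symm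

theorem toPP_ka (he : d.e = d.be - d.al) (p r : R) : ka (toPP d) p r = d.ka p r := by
  unfold ka TD.ka
  rw [toPP_ee he]
  rfl

theorem toPP_j0 (he : d.e = d.be - d.al) (p r : R) : j0 (toPP d) p r = d.jn p r := by
  unfold j0 TD.jn
  rw [toPP_ka he]
  rfl

theorem toPP_A3 (he : d.e = d.be - d.al) (p r : R) : A3 (toPP d) p r = d.b1 p r := by
  unfold A3 TD.b1
  rw [toPP_j0 he, toPP_ka he, toPP_ee he]
  rfl

theorem toPP_A4 (he : d.e = d.be - d.al) (p r : R) : A4 (toPP d) p r = d.b0 p r := by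
  unfold A4 TD.b0
  rw [toPP_j0 he, toPP_ka he, toPP_ee he]
  unfold TD.g2 TD.g3
  change _ ^ 2 - 4 * d.al * d.be * (d.ka p r * (p * r - d.A * d.C) + d.l * d.e *
    ((r - d.rn) * p - d.A * (p - d.pn)) * ((p - d.pn) * r - d.C * (r - d.rn))) = _
  ring

theorem toPP_TT (he : d.e = d.be - d.al) (p r : R) :
    TT (toPP d) p r = d.b1 p r ^ 2 - 4 * d.B2 p r * d.b0 p r := by
  unfold TT
  rw [toPP_A3 he, toPP_A4 he]
  rfl

theorem toPP_H4 (he : d.e = d.be - d.al) (p r : R) :
    H4 (toPP d) p r = 2 * d.B2 p r * d.jn p r - d.l * ((p - d.pn) + (r - d.rn)) * d.b1 p r := by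
  unfold H4
  rw [toPP_A3 he, toPP_j0 he]
  rfl

theorem toPP_Tx (he : d.e = d.be - d.al) (p r X : R) :
    Tx (toPP d) p r X = 2 * d.T2 X * ((p - d.pn) + (r - d.rn)) + d.T1 X := by
  unfold Tx ax bx aY bY pp rr Yf q2 TD.T2 TD.T1 TD.M1 TD.d2 TD.d1 TD.y2 TD.y1 TD.t0 TD.t1 TD.r1
    TD.q2 TD.c
  rw [toPP_ee he]
  change (d.kr - d.kp + d.l * (X + d.be * d.A + d.al * d.C)) *
    -(d.l * (d.be * (X - d.be * p - d.al * r + d.e * (p - d.pn)) * (X + 2 * d.al * d.A) -
      d.al * (d.e * (r - d.rn) - (X - d.be * p - d.al * r)) * (X + 2 * d.be * d.C))) -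
    d.e * (X ^ 2 - 4 * d.al * d.be * d.A * d.C) *
      (2 * d.e * d.al * d.be * (p + r) - d.al * d.kp + d.be * d.kr +
        d.l * ((d.al + d.be) * X + 2 * d.al * d.be * (d.A + d.C))) = _
  rw [he]
  ring

end ring

section field

variable {N : Type} [Field N] {d : TD N}

theorem Pt_Phi2 {p r X S a b G : N} (he : d.e = d.be - d.al) (h : d.Pt p r X S a b G) :
    Phi2 (toPP d) p r X = 0 := by
  have h1 := h.X_eq he
  have h2 := h.hQ
  have hY : Yf (toPP d) p r X = d.l * d.e * G := by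
    unfold Yf
    change X - d.be * p - d.al * r = _
    rw [← h1]; ring
  have hp : pp (toPP d) p r X = d.e * a := by
    unfold pp
    rw [hY, toPP_ee he, h.hp]
    change d.l * d.e * G + d.e * (d.pn + a - d.l * G - d.pn) = _
    ring
  have hr : rr (toPP d) p r X = d.e * b := by
    unfold rr
    rw [hY, toPP_ee he, h.hr]
    change d.e * (d.rn + b + d.l * G - d.rn) - d.l * d.e * G = _
    ring
  unfold Phi2
  rw [hp, hr, hY, toPP_ee he]
  change d.e * d.q2 X * (d.l * d.e * G) - d.l * d.QX X (d.e * a) (d.e * b) = 0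
  have h3 : d.QX X (d.e * a) (d.e * b) = d.e ^ 2 * d.QX X a b := by
    unfold TD.QX; ring
  rw [h3, h2]
  ring

theorem Pt_Phi3 {p r X S a b G : N} (he : d.e = d.be - d.al) (h : d.Pt p r X S a b G) :
    Phi3 (toPP d) p r X = 0 := by
  have h1 := h.X_eq he
  have h2 := h.hW
  have hY : Yf (toPP d) p r X = d.l * d.e * G := by
    unfold Yf
    change X - d.be * p - d.al * r = _
    rw [← h1]; ring
  have hp : pp (toPP d) p r X = d.e * a := by
    unfold pp
    rw [hY, toPP_ee he, h.hp]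
    change d.l * d.e * G + d.e * (d.pn + a - d.l * G - d.pn) = _
    ring
  have hr : rr (toPP d) p r X = d.e * b := by
    unfold rr
    rw [hY, toPP_ee he, h.hr]
    change d.e * (d.rn + b + d.l * G - d.rn) - d.l * d.e * G = _
    ring
  unfold Phi3
  rw [hp, hr, hY, toPP_ee he]
  change d.e * d.W p r - d.e * d.q2 X - d.l * (X * (d.e * a - d.e * b) +
    2 * d.be * d.A * (d.e * a) - 2 * d.al * d.C * (d.e * b) -
    d.l * d.e * G * (X + d.be * d.A + d.al * d.C)) = 0
  rw [h2]
  unfold TD.Lf TD.t0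
  ring

theorem Pt_HH {p r X S a b G : N} (h : d.Pt p r X S a b G) :
    HH (toPP d) p r X = 2 * d.q2 X + d.l * d.Lf X a b := by
  unfold HH
  have h2 := h.hW
  change 2 * d.W p r + d.l * ((X + 2 * d.al * d.C) * (r - d.rn) -
    (X + 2 * d.be * d.A) * (p - d.pn)) = _
  rw [h2, h.hp, h.hr]
  unfold TD.Lf TD.t0
  ring

end field

section poly

variable {N : Type} [Field N]

/-- the value of the derivative at a point -/
noncomputable def evD (x : N) : N[X] →+ N where
  toFun g := (derivative g).eval x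
  map_zero' := by simp
  map_add' g h := by simp

theorem evD_mul (x : N) (g h : N[X]) :
    evD x (g * h) = evalRingHom x g * evD x h + evD x g * evalRingHom x h := by
  change (derivative (g * h)).eval x = g.eval x * (derivative h).eval x
    + (derivative g).eval x * h.eval x
  rw [derivative_mul, eval_add, eval_mul, eval_mul]
  ring

/-- the constants as polynomials -/
noncomputable def cPP (P : PP N) : PP N[X] := P.map (C : N →+* N[X])

theorem cPP_killed (P : PP N) (x : N) : Killed (evD x) (cPP P) := by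
  constructor <;> exact (by simp [evD, cPP, PP.map])

theorem cPP_map (P : PP N) (x : N) : (cPP P).map (evalRingHom x) = P := by
  simp [cPP, PP.map]

theorem eval_TT (P : PP N) (p r : N[X]) (x : N) :
    (TT (cPP P) p r).eval x = TT P (p.eval x) (r.eval x) := by
  have h := f_TT (evalRingHom x) (cPP P) p r
  rw [cPP_map] at h
  exact h

variable {d : TD N}

/-- **(F)**, in all directions: `g` is the discriminant along a family `(p₀(z), r₀(z))` of lines. -/
theorem F_poly [CharZero N] (he : d.e = d.be - d.al) (he0 : d.e ≠ 0) (D : Derivation ℤ N N)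
    (hD : KilledD D (toPP d)) {g p₀ r₀ : N[X]}
    (hg : ∀ z, g.eval z = d.b1 (p₀.eval z) (r₀.eval z) ^ 2 -
      4 * d.B2 (p₀.eval z) (r₀.eval z) * d.b0 (p₀.eval z) (r₀.eval z)) {x p r s : N}
    (hp : p₀.eval x = p) (hr : r₀.eval x = r) (hk : d.ka p r ≠ 0)
    (hd : d.b1 p r ^ 2 = 4 * d.B2 p r * d.b0 p r) (hs : s ^ 2 = d.B2 p r) (hs0 : s ≠ 0)
    (hq : d.q2 (d.Xf p r) ≠ 0) :
    (derivative g).eval x * D (d.Xf p r) = 8 * d.vf p r s *
      (s * (d.jn p r - d.l * ((p - d.pn) + (r - d.rn)) * d.b1 p r / (2 * s ^ 2))) *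
      (D p * (derivative r₀).eval x - D r * (derivative p₀).eval x) := by
  have hpt := TD.pt_f he hk hd
  have hg' : g = TT (cPP (toPP d)) p₀ r₀ := by
    apply Polynomial.funext
    intro z
    rw [hg, eval_TT, toPP_TT he]
  have hw := TD.wf_ne he he0 hk hd hs hs0 hq
  have h1 := TD.Lf_e he hpt
  have hsu : s * d.wf p r s = HH (toPP d) p r (d.Xf p r) := by
    rw [Pt_HH hpt]
    unfold TD.wf
    rw [← h1]
    field_simp
  have hv : ee (toPP d) * (d.wf p r s * d.vf p r s) = Tx (toPP d) p r (d.Xf p r) := by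
    rw [toPP_Tx he, toPP_ee he]
    unfold TD.vf TD.Sf
    field_simp
  have key := F_main (f := evalRingHom x) (d := evD x) (evD_mul x) (cPP_killed (toPP d) x)
    p₀ r₀ D (by rw [cPP_map]; exact hD) (d.Xf p r)
    (by
      rw [cPP_map]
      change Phi2 (toPP d) (p₀.eval x) (r₀.eval x) _ = 0
      rw [hp, hr]; exact Pt_Phi2 he hpt)
    (by
      rw [cPP_map]
      change Phi3 (toPP d) (p₀.eval x) (r₀.eval x) _ = 0
      rw [hp, hr]; exact Pt_Phi3 he hpt)
    (by rw [cPP_map, toPP_ee he]; exact he0)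
    (by
      rw [cPP_map]
      change ka (toPP d) (p₀.eval x) (r₀.eval x) ≠ 0
      rw [hp, hr, toPP_ka he]; exact hk)
    (d.wf p r s) (d.vf p r s) s
    (by
      rw [cPP_map]
      change _ = HH (toPP d) (p₀.eval x) (r₀.eval x) _
      rw [hp, hr]; exact hsu)
    (by
      rw [cPP_map]
      change _ = Tx (toPP d) (p₀.eval x) (r₀.eval x) _
      rw [hp, hr]; exact hv)
  rw [cPP_map] at key
  change s * ((derivative (TT (cPP (toPP d)) p₀ r₀)).eval x * D (d.Xf p r)) =
    4 * d.vf p r s * H4 (toPP d) (p₀.eval x) (r₀.eval x) *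
      (D (p₀.eval x) * (derivative r₀).eval x - D (r₀.eval x) * (derivative p₀).eval x) at key
  rw [hp, hr, toPP_H4 he, ← hg', ← hs] at key
  apply mul_left_cancel₀ hs0
  rw [key]
  field_simp
  ring

/-- **(F)** in the planes `p + r = W`. -/
theorem F_plane [CharZero N] (he : d.e = d.be - d.al) (he0 : d.e ≠ 0) (D : Derivation ℤ N N)
    (hD : KilledD D (toPP d)) {g : N[X]} {W p s : N}
    (hg : ∀ z, g.eval z = d.b1 z (W - z) ^ 2 - 4 * d.B2 z (W - z) * d.b0 z (W - z))
    (hk : d.ka p (W - p) ≠ 0)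
    (hd : d.b1 p (W - p) ^ 2 = 4 * d.B2 p (W - p) * d.b0 p (W - p))
    (hs : s ^ 2 = d.B2 p (W - p)) (hs0 : s ≠ 0) (hq : d.q2 (d.Xf p (W - p)) ≠ 0) :
    (derivative g).eval p * D (d.Xf p (W - p)) = -(8 * d.vf p (W - p) s *
      (s * (d.jn p (W - p) - d.l * ((p - d.pn) + ((W - p) - d.rn)) * d.b1 p (W - p) /
        (2 * s ^ 2))) * D W) := by
  have h := F_poly he he0 D hD (g := g) (p₀ := X) (r₀ := C W - X) (x := p) (p := p)
    (r := W - p) (s := s) (by intro z; simp [hg]) (by simp) (by simp) hk hd hs hs0 hq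
  have hDr : D (W - p) = D W - D p := map_sub D W p
  rw [h, hDr]
  simp only [derivative_sub, derivative_C, derivative_X, eval_sub, eval_zero, eval_one]
  ring

end poly

end Vale.Agent.P297.H946.Z2F
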