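import Vale.Agent.P297.H65.Z2.Plane
import Vale.Agent.P297.H946.Z2.F

/-!
# P297, general Z/2 Godeaux: formula (F) at the nodes of `T_l`
-/

set_option linter.unusedSectionVars false

namespace Vale.Agent.P297.H946.Z2F

open Polynomial Vale.Agent.P297.Z2 Vale.Agent.P297.H65 Vale.Agent.P297.H160.Z2Irr

variable {N : Type} [Field N] [Algebra ℂ N]

theorem D_div (D : Derivation ℤ N N) {a b : N} (ha : D a = 0) (hb : D b = 0) :
    D (a / b) = 0 := by
  by_cases h : b = 0
  · rw [h, div_zero, map_zero]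
  · have h1 : D (a / b * b) = 0 := by rw [div_mul_cancel₀ _ h]; exact ha
    rw [Derivation.leibniz, hb, smul_zero, zero_add, smul_eq_mul] at h1
    rcases mul_eq_zero.mp h1 with h2 | h2
    · exact absurd h2 h
    · exact h2

theorem D_mul0 (D : Derivation ℤ N N) {a b : N} (ha : D a = 0) (hb : D b = 0) :
    D (a * b) = 0 := by
  rw [Derivation.leibniz, ha, hb, smul_zero, smul_zero, add_zero]

theorem D_add0 (D : Derivation ℤ N N) {a b : N} (ha : D a = 0) (hb : D b = 0) :
    D (a + b) = 0 := by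
  rw [map_add, ha, hb, add_zero]

theorem D_sub0 (D : Derivation ℤ N N) {a b : N} (ha : D a = 0) (hb : D b = 0) :
    D (a - b) = 0 := by
  rw [map_sub, ha, hb, sub_zero]

theorem D_neg0 (D : Derivation ℤ N N) {a : N} (ha : D a = 0) : D (-a) = 0 := by
  rw [map_neg, ha, neg_zero]

theorem D_num0 (D : Derivation ℤ N N) (n : ℕ) [n.AtLeastTwo] :
    D (OfNat.ofNat n : N) = 0 := by
  rw [← Nat.cast_ofNat (R := N) (n := n)]
  exact D.map_natCast _

/-- the constants of a node are killed -/
theorem killed_ntd {P : Par} {l al be : N} (D : Derivation ℤ N N)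
    (hC : ∀ z : ℂ, D (algebraMap ℂ N z) = 0) (hl : D l = 0) (hal : D al = 0) (hbe : D be = 0) :
    KilledD D (toPP (ntd P l al be)) := by
  have hA : D (be * algebraMap ℂ N P.P2 / al) = 0 := D_div D (D_mul0 D hbe (hC _)) hal
  have hCc : D (al * algebraMap ℂ N P.P0 / be) = 0 := D_div D (D_mul0 D hal (hC _)) hbe
  have hba : D (be - al) = 0 := D_sub0 D hbe hal
  have h2 : D (2 : N) = 0 := D_num0 D 2
  have hab : D (al * be) = 0 := D_mul0 D hal hbe
  refine ⟨hal, hbe, hl, hA, hCc, ?_, ?_, ?_, ?_, ?_⟩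
  · exact D_sub0 D (D_mul0 D hal (hC _)) hCc
  · exact D_sub0 D (D_neg0 D (D_mul0 D hbe (hC _))) hA
  · exact D_add0 D (D_mul0 D hab (D_sub0 D (hC _) (D_mul0 D hl (D_add0 D (hC _) (hC _)))))
      (D_mul0 D (D_mul0 D hl hba) hA)
  · exact D_add0 D (D_mul0 D hab (D_sub0 D (hC _) (D_mul0 D hl (D_add0 D (hC _) (hC _)))))
      (D_mul0 D (D_mul0 D hl hba) hCc)
  · exact D_sub0 D (D_sub0 D (D_sub0 D (D_add0 D
      (D_neg0 D (D_mul0 D hab (D_sub0 D (hC _) (D_mul0 D hl (hC _)))))
      (D_mul0 D (D_mul0 D (D_mul0 D (D_mul0 D h2 hl) hba) hA) hCc))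
      (D_mul0 D (D_mul0 D (D_mul0 D (D_mul0 D (D_mul0 D hl hba) hal) hbe) (hC _)) (hC _)))
      (D_mul0 D (D_mul0 D (D_mul0 D (D_mul0 D hl hal) (D_sub0 D (D_mul0 D h2 hbe) hal)) hA)
        (hC _)))
      (D_mul0 D (D_mul0 D (D_mul0 D (D_mul0 D hl hbe) (D_sub0 D (D_mul0 D h2 hal) hbe)) hCc)
        (hC _))

/-- the quadric on the lines through the node -/
theorem tJ_line {P : Par} (hM : P.M1 = 0) {l al be : N} (h : IsNode P l al be) (p r y : N) :
    al * be * tJ P l (al * y + p) (-be * y + r) y =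
      al * be * l * ((p - (ntd P l al be).pn) + (r - (ntd P l al be).rn)) * y +
        (ntd P l al be).jn p r := by
  have h1 := h.rl.J p r y
  have h2 : -be * y = -(be * y) := by ring
  rw [h2]
  refine Eq.trans ?_ h1
  change _ = al * be * _
  congr 1
  unfold tJ Dat.J0 Dat.J1 dat fU fV fa fc fe fm
  rw [hM, map_zero]
  change _ = ((al * y + p) + (-(be * y) + r)) ^ 2 + (2 * y + algebraMap ℂ N P.Q0) * (al * y + p) +
      (2 * y + algebraMap ℂ N P.Q1) * (-(be * y) + r) - (algebraMap ℂ N P.m - y ^ 2) -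
      l * ((y + algebraMap ℂ N P.u) * (al * y + p) + (y + algebraMap ℂ N P.v) * (-(be * y) + r) -
        (algebraMap ℂ N P.n - y ^ 2 + algebraMap ℂ N P.P1 * y))
  ring

/-- **(F)** at a node of `T_l`. -/
theorem F_node [CharZero N] {P : Par} (hM : P.M1 = 0) {l al be p r s : N}
    (hn : IsNode P l al be) (hl1 : l ≠ 1) (D : Derivation ℤ N N)
    (hC : ∀ z : ℂ, D (algebraMap ℂ N z) = 0) (hl : D l = 0) (hal : D al = 0)
    (hd : (ntd P l al be).b1 p r ^ 2 = 4 * (ntd P l al be).B2 p r * (ntd P l al be).b0 p r)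
    (hs : s ^ 2 = (ntd P l al be).B2 p r) (hs0 : s ≠ 0) (hk : (ntd P l al be).ka p r ≠ 0)
    (hq : (ntd P l al be).q2 ((ntd P l al be).Xf p r) ≠ 0) :
    D ((ntd P l al be).Xf p r) * (derivative ((planeCub P l (p + r)).disc al)).eval p =
      -(8 * (s * tJ P l (al * yt P l al p r + p) (-be * yt P l al p r + r) (yt P l al p r)) *
        ((ntd P l al be).vf p r s / (al * be)) * D (p + r)) := by
  have hbe : D be = 0 := by
    have h1 : be = al + 1 - l := by linear_combination hn.sub
    rw [h1, map_sub, map_add, hal, hl, Derivation.map_one_eq_zero]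
    ring
  have hab : al * be ≠ 0 := mul_ne_zero hn.al0 hn.be0
  have he : (ntd P l al be).e = (ntd P l al be).be - (ntd P l al be).al := rfl
  have he0 : (ntd P l al be).e ≠ 0 := by
    change be - al ≠ 0
    rw [hn.sub]
    exact sub_ne_zero.2 (Ne.symm hl1)
  have hr : p + r - p = r := by ring
  have key := F_plane (d := ntd P l al be) he he0 D (killed_ntd D hC hl hal hbe)
    (g := C ((al * be) ^ 2) * (planeCub P l (p + r)).disc al) (W := p + r) (p := p) (s := s)
    (by
      intro z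
      obtain ⟨h2, h3, h4⟩ := plane_coef hM hn z (p + r - z)
      rw [show z + (p + r - z) = p + r by ring] at h2 h3 h4
      rw [eval_mul, eval_C, Cub.eval_disc, ← h2, ← h3, ← h4]
      ring)
    (by rw [hr]; exact hk) (by rw [hr]; exact hd) (by rw [hr]; exact hs) hs0
    (by rw [hr]; exact hq)
  rw [hr] at key
  obtain ⟨h2, h3, h4⟩ := plane_coef hM hn p r
  rw [derivative_C_mul, eval_mul, eval_C] at key
  have hyt : al * be * yt P l al p r = -((ntd P l al be).b1 p r / (2 * s ^ 2)) := by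
    unfold yt
    rw [h2, ← h3, ← hs]
    field_simp
  have hJ := tJ_line hM hn p r (yt P l al p r)
  have hsJ : al * be * (s * tJ P l (al * yt P l al p r + p) (-be * yt P l al p r + r)
      (yt P l al p r)) = s * ((ntd P l al be).jn p r - (ntd P l al be).l *
        ((p - (ntd P l al be).pn) + (r - (ntd P l al be).rn)) * (ntd P l al be).b1 p r /
          (2 * s ^ 2)) := by
    have hl' : (ntd P l al be).l = l := rfl
    rw [hl']
    linear_combination s * hJ + s * l * ((p - (ntd P l al be).pn) + (r - (ntd P l al be).rn)) * hyt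
  rw [← hsJ] at key
  apply mul_left_cancel₀ (pow_ne_zero 2 hab)
  rw [show (al * be) ^ 2 * (D ((ntd P l al be).Xf p r) *
      (derivative ((planeCub P l (p + r)).disc al)).eval p) =
    (al * be) ^ 2 * (derivative ((planeCub P l (p + r)).disc al)).eval p *
      D ((ntd P l al be).Xf p r) by ring, key]
  field_simp

end Vale.Agent.P297.H946.Z2F
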